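import Vale.Agent.Lib.P249.helper62.GridDefs

/-!
Final PiLp assembly of the grid lower bound for P249 (helper46, pool job GRID-L of helper62).

`gX_injective'`: the grid points are distinct (own copy, backup).
`grid_final_of_core`: the hand-in statement, with the real-variable core `grid_core` and the
injectivity of `gX` as hypotheses.
-/

namespace Vale.Agent.Lib.P249.H46

open Finset
open Vale.Agent.Lib.P249.H62

/-- The grid points are distinct (own copy): the all-plus sign vector and the sign vectors with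
one flipped sign recover every coordinate. -/
theorem gX_injective' (M k : ℕ) : Function.Injective (gX M k) := by
  intro x y hxy
  have hv : ∀ j, gv M (x j) = gv M (y j) := by
    intro j
    have h0 := congrFun hxy (fun _ => false)
    have h1 := congrFun hxy (fun i => decide (i = j))
    simp only [gX, sg] at h0 h1
    have key : ∀ z : Fin k → Fin (2 * M + 1),
        ∑ i, gv M (z i) * (if (false : Bool) = true then (-1 : ℝ) else 1) -
          ∑ i, gv M (z i) * (if decide (i = j) = true then (-1 : ℝ) else 1) =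
          2 * gv M (z j) := by
      intro z
      rw [← Finset.sum_sub_distrib]
      rw [Finset.sum_eq_single j]
      · simp; ring
      · intro i _ hij
        simp [hij]
      · intro h; exact absurd (Finset.mem_univ j) h
    have hx := key x
    have hy := key y
    rw [h0, h1] at hx
    linarith
  funext j
  have h := hv j
  unfold gv at h
  have h2 : ((x j : ℕ) : ℝ) = ((y j : ℕ) : ℝ) := by linarith
  exact Fin.ext (by exact_mod_cast h2)

/-- The hand-in statement of the grid lower bound, from the real-variable core and the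
injectivity of the grid points (both as hypotheses). -/
theorem grid_final_of_core
    (hcore : ∀ (k : ℕ), 1 ≤ k → ∀ (q : ℝ), 2 ≤ q → ∀ (d : ℕ) (s D : ℝ), 0 < s →
      ∀ (y : (Fin k → Fin (2 * (3 * k) + 1)) → Fin d → ℝ),
      (∀ c c', s ^ q * ∑ e, |gX (3 * k) k c e - gX (3 * k) k c' e| ^ q
        ≤ ∑ i, |y c i - y c' i| ^ q) →
      (∀ c c', ∑ i, |y c i - y c' i| ^ q
        ≤ D ^ q * s ^ q * ∑ e, |gX (3 * k) k c e - gX (3 * k) k c' e| ^ q) →
      (1 / 11 : ℝ) * (2 * k / (3 * q ^ 2)) ^ (q / 2) ≤ D ^ q * d)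
    (hinj : ∀ M k : ℕ, Function.Injective (gX M k))
    (p : ENNReal) [Fact (1 ≤ p)] (hp : p ≠ ⊤) (hp2 : 2 ≤ p) (k : ℕ) (hk : 1 ≤ k) :
    ∃ (m : ℕ) (x : Fin ((6 * k + 1) ^ k) → PiLp p (fun _ : Fin m => ℝ)), Function.Injective x ∧
      ∀ (d : ℕ) (y : Fin ((6 * k + 1) ^ k) → PiLp p (fun _ : Fin d => ℝ)) (s D : ℝ), 0 < s →
        (∀ i j, s * dist (x i) (x j) ≤ dist (y i) (y j) ∧
          dist (y i) (y j) ≤ D * s * dist (x i) (x j)) →
        (1 / 11 : ℝ) * (2 * k / (3 * p.toReal ^ 2)) ^ (p.toReal / 2) ≤ D ^ p.toReal * d := by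
  have hq : 2 ≤ p.toReal := by
    have := ENNReal.toReal_mono hp hp2
    simpa using this
  have hq0 : 0 < p.toReal := by linarith
  have hcardG : Fintype.card (Fin k → Fin (2 * (3 * k) + 1)) = (6 * k + 1) ^ k := by
    rw [Fintype.card_fun, Fintype.card_fin, Fintype.card_fin]
    congr 1
    ring
  have hcardB : Fintype.card (Fin k → Bool) = 2 ^ k := by simp
  let σ : Fin ((6 * k + 1) ^ k) ≃ (Fin k → Fin (2 * (3 * k) + 1)) :=
    (Fintype.equivFinOfCardEq hcardG).symm
  let τ : Fin (2 ^ k) ≃ (Fin k → Bool) := (Fintype.equivFinOfCardEq hcardB).symm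
  let x : Fin ((6 * k + 1) ^ k) → PiLp p (fun _ : Fin (2 ^ k) => ℝ) := fun i =>
    WithLp.toLp p (fun e => gX (3 * k) k (σ i) (τ e))
  have hxapp : ∀ i e, x i e = gX (3 * k) k (σ i) (τ e) := fun i e => rfl
  have hxinj : Function.Injective x := by
    intro i j hij
    apply σ.injective
    apply hinj (3 * k) k
    funext ε
    have h1 : x i (τ.symm ε) = x j (τ.symm ε) := by rw [hij]
    rw [hxapp, hxapp, Equiv.apply_symm_apply] at h1
    exact h1
  refine ⟨2 ^ k, x, hxinj, ?_⟩
  intro d y s D hs hy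
  have hdist : ∀ (n : ℕ) (u v : PiLp p (fun _ : Fin n => ℝ)),
      dist u v ^ p.toReal = ∑ i, |u i - v i| ^ p.toReal := by
    intro n u v
    rw [PiLp.dist_eq_sum hq0,
      ← Real.rpow_mul (Finset.sum_nonneg (fun i _ => Real.rpow_nonneg dist_nonneg _)),
      one_div_mul_cancel hq0.ne', Real.rpow_one]
    exact Finset.sum_congr rfl (fun i _ => by rw [Real.dist_eq])
  have hXeq : ∀ c c' : Fin k → Fin (2 * (3 * k) + 1),
      dist (x (σ.symm c)) (x (σ.symm c')) ^ p.toReal =
        ∑ e : Fin k → Bool, |gX (3 * k) k c e - gX (3 * k) k c' e| ^ p.toReal := by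
    intro c c'
    rw [hdist, ← Equiv.sum_comp τ]
    refine Finset.sum_congr rfl (fun e _ => ?_)
    rw [hxapp, hxapp, Equiv.apply_symm_apply, Equiv.apply_symm_apply]
  -- D is at least one, in particular nonnegative
  have hD : 0 ≤ D := by
    have h2 : 2 ≤ (6 * k + 1) ^ k := by
      calc 2 ≤ 6 * k + 1 := by omega
        _ = (6 * k + 1) ^ 1 := (pow_one _).symm
        _ ≤ (6 * k + 1) ^ k := Nat.pow_le_pow_right (by omega) hk
    let i0 : Fin ((6 * k + 1) ^ k) := ⟨0, by omega⟩
    let i1 : Fin ((6 * k + 1) ^ k) := ⟨1, by omega⟩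
    have hne : i0 ≠ i1 := by
      intro h
      have := congrArg Fin.val h
      simp [i0, i1] at this
    have hpos : 0 < dist (x i0) (x i1) := dist_pos.mpr (fun h => hne (hxinj h))
    have h3 := (hy i0 i1).1.trans (hy i0 i1).2
    have h4 : 0 < s * dist (x i0) (x i1) := mul_pos hs hpos
    have h5 : 1 * (s * dist (x i0) (x i1)) ≤ D * (s * dist (x i0) (x i1)) := by
      rw [one_mul, ← mul_assoc]; exact h3
    have h6 : 1 ≤ D := le_of_mul_le_mul_right h5 h4
    linarith
  refine hcore k hk p.toReal hq d s D hs (fun c i => y (σ.symm c) i) ?_ ?_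
  · intro c c'
    show s ^ p.toReal * ∑ e, |gX (3 * k) k c e - gX (3 * k) k c' e| ^ p.toReal ≤
      ∑ i, |y (σ.symm c) i - y (σ.symm c') i| ^ p.toReal
    rw [← hXeq, ← hdist, ← Real.mul_rpow hs.le dist_nonneg]
    exact Real.rpow_le_rpow (mul_nonneg hs.le dist_nonneg) (hy _ _).1 hq0.le
  · intro c c'
    show ∑ i, |y (σ.symm c) i - y (σ.symm c') i| ^ p.toReal ≤
      D ^ p.toReal * s ^ p.toReal * ∑ e, |gX (3 * k) k c e - gX (3 * k) k c' e| ^ p.toReal
    rw [← hXeq, ← hdist, ← Real.mul_rpow hD hs.le,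
      ← Real.mul_rpow (mul_nonneg hD hs.le) dist_nonneg]
    exact Real.rpow_le_rpow dist_nonneg (hy _ _).2 hq0.le

end Vale.Agent.Lib.P249.H46
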