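import Vale.Agent.Lib.P249.helper62.GridDefs

/-!
Backup copy of the finite core of the grid lower bound for P249 (helper46, for helper62,
proof report 1926): `grid_core_of_lemmas` derives the statement `grid_core` of the skeleton
from the skeleton statements of `khin_upper`, `khin_lower`, `grid_conc`, `grid_spread` and
`gZ_defect`, taken as hypotheses. `D` is not assumed nonnegative.
-/

namespace Vale.Agent.Lib.P249.H46

open Finset
open Vale.Agent.Lib.P249.H62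

theorem grid_core_of_lemmas
    (hku : ∀ (k : ℕ) (q : ℝ), 0 < q → ∀ c : Fin k → ℝ,
      ∑ e : Fin k → Bool, |∑ j, c j * sg (e j)| ^ q
        ≤ 2 * 2 ^ k * (q * (∑ j, c j ^ 2) / Real.exp 1) ^ (q / 2))
    (hkl : ∀ (k : ℕ) (q : ℝ), 2 ≤ q → ∀ c : Fin k → ℝ,
      (2:ℝ) ^ k * (∑ j, c j ^ 2) ^ (q / 2) ≤ ∑ e : Fin k → Bool, |∑ j, c j * sg (e j)| ^ q)
    (hconc : ∀ (M : ℕ), 1 ≤ M → ∀ (k : ℕ) (q : ℝ), 1 ≤ q → ∀ (Lam : ℝ), 0 ≤ Lam →
      ∀ (h : (Fin k → Fin (2 * M + 1)) → ℝ),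
      (∀ x y, |h x - h y| ≤ Lam * Real.sqrt (gdist2 M k x y)) →
      ∑ x, ∑ y, gPhi M k x * gPhi M k y * |h x - h y| ^ q
        ≤ 2 * (gZ M + 1) ^ (2 * k) * (q * (M : ℝ) ^ 2 / Real.exp 1) ^ (q / 2) * Lam ^ q)
    (hspread : ∀ (M : ℕ), 1 ≤ M → ∀ (k : ℕ), 1 ≤ k → ∀ (q : ℝ), 2 ≤ q →
      gZ M ^ (2 * k) * (2 * k * (M : ℝ) ^ 2 / (3 * Real.exp 2)) ^ (q / 2)
        ≤ ∑ x, ∑ y, gPhi M k x * gPhi M k y * (gdist2 M k x y) ^ (q / 2))
    (hdefect : ∀ (k : ℕ), 1 ≤ k →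
      (gZ (3 * k) + 1) ^ (2 * k) ≤ Real.exp 1 * gZ (3 * k) ^ (2 * k))
    (k : ℕ) (hk : 1 ≤ k) (q : ℝ) (hq : 2 ≤ q) (d : ℕ) (s D : ℝ) (hs : 0 < s)
    (y : (Fin k → Fin (2 * (3 * k) + 1)) → Fin d → ℝ)
    (hlow : ∀ c c', s ^ q * ∑ e, |gX (3 * k) k c e - gX (3 * k) k c' e| ^ q
      ≤ ∑ i, |y c i - y c' i| ^ q)
    (hup : ∀ c c', ∑ i, |y c i - y c' i| ^ q
      ≤ D ^ q * s ^ q * ∑ e, |gX (3 * k) k c e - gX (3 * k) k c' e| ^ q) :
    (1 / 11 : ℝ) * (2 * k / (3 * q ^ 2)) ^ (q / 2) ≤ D ^ q * d := by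
  have hq0 : 0 < q := by linarith
  have hM : 1 ≤ 3 * k := by omega
  have hkpos : (0 : ℝ) < k := by exact_mod_cast hk
  obtain ⟨Mr, hMr⟩ : ∃ Mr : ℝ, Mr = ((3 * k : ℕ) : ℝ) := ⟨_, rfl⟩
  have hMr0 : 0 < Mr := by rw [hMr]; exact_mod_cast hM
  have he : 0 < Real.exp 1 := Real.exp_pos 1
  -- the constant `D ^ q` is treated as an opaque real number
  generalize D ^ q = A at hup ⊢
  have hg0 : ∀ c c' : Fin k → Fin (2 * (3 * k) + 1), 0 ≤ gdist2 (3 * k) k c c' := fun c c' =>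
    Finset.sum_nonneg (fun j _ => sq_nonneg _)
  have hXdiff : ∀ (c c' : Fin k → Fin (2 * (3 * k) + 1)) (e : Fin k → Bool),
      gX (3 * k) k c e - gX (3 * k) k c' e =
        ∑ j, (gv (3 * k) (c j) - gv (3 * k) (c' j)) * sg (e j) := by
    intro c c' e
    unfold gX
    rw [← Finset.sum_sub_distrib]
    exact Finset.sum_congr rfl (fun j _ => by ring)
  have hXeq : ∀ (c c' : Fin k → Fin (2 * (3 * k) + 1)),
      ∑ e, |gX (3 * k) k c e - gX (3 * k) k c' e| ^ q =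
        ∑ e : Fin k → Bool, |∑ j, (gv (3 * k) (c j) - gv (3 * k) (c' j)) * sg (e j)| ^ q :=
    fun c c' => Finset.sum_congr rfl (fun e _ => by rw [hXdiff])
  obtain ⟨U, hU⟩ : ∃ U : ℝ, U = 2 * 2 ^ k * (q / Real.exp 1) ^ (q / 2) := ⟨_, rfl⟩
  have hUpos : 0 < U := by rw [hU]; positivity
  have hXup : ∀ c c' : Fin k → Fin (2 * (3 * k) + 1),
      ∑ e, |gX (3 * k) k c e - gX (3 * k) k c' e| ^ q ≤
        U * (gdist2 (3 * k) k c c') ^ (q / 2) := by
    intro c c'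
    rw [hXeq]
    have h := hku k q hq0 (fun j => gv (3 * k) (c j) - gv (3 * k) (c' j))
    have e1 : (q * (∑ j, (gv (3 * k) (c j) - gv (3 * k) (c' j)) ^ 2) / Real.exp 1) ^ (q / 2)
        = (q / Real.exp 1) ^ (q / 2) * (gdist2 (3 * k) k c c') ^ (q / 2) := by
      rw [← Real.mul_rpow (by positivity) (hg0 c c')]
      congr 1
      unfold gdist2
      ring
    rw [e1] at h
    calc ∑ e : Fin k → Bool, |∑ j, (gv (3 * k) (c j) - gv (3 * k) (c' j)) * sg (e j)| ^ q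
        ≤ 2 * 2 ^ k * ((q / Real.exp 1) ^ (q / 2) * (gdist2 (3 * k) k c c') ^ (q / 2)) := h
      _ = U * (gdist2 (3 * k) k c c') ^ (q / 2) := by rw [hU]; ring
  have hXlow : ∀ c c' : Fin k → Fin (2 * (3 * k) + 1),
      (2:ℝ) ^ k * (gdist2 (3 * k) k c c') ^ (q / 2) ≤
        ∑ e, |gX (3 * k) k c e - gX (3 * k) k c' e| ^ q := by
    intro c c'
    rw [hXeq]
    exact hkl k q hq (fun j => gv (3 * k) (c j) - gv (3 * k) (c' j))
  have hX0 : ∀ c c' : Fin k → Fin (2 * (3 * k) + 1),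
      0 ≤ ∑ e, |gX (3 * k) k c e - gX (3 * k) k c' e| ^ q := fun c c' =>
    Finset.sum_nonneg (fun e _ => Real.rpow_nonneg (abs_nonneg _) q)
  have hsq : 0 < s ^ q := Real.rpow_pos_of_pos hs q
  obtain ⟨A', hA'⟩ : ∃ A' : ℝ, A' = max A 0 := ⟨_, rfl⟩
  have hA'0 : 0 ≤ A' := by rw [hA']; exact le_max_right _ _
  have hAA' : A ≤ A' := by rw [hA']; exact le_max_left _ _
  have hbase : 0 ≤ A' * s ^ q * U := by positivity
  obtain ⟨Lam, hLam⟩ : ∃ Lam : ℝ, Lam = (A' * s ^ q * U) ^ (1 / q) := ⟨_, rfl⟩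
  have hLam0 : 0 ≤ Lam := by rw [hLam]; exact Real.rpow_nonneg hbase _
  have hLamq : Lam ^ q = A' * s ^ q * U := by
    rw [hLam, ← Real.rpow_mul hbase, one_div_mul_cancel hq0.ne', Real.rpow_one]
  have hlip : ∀ i : Fin d, ∀ c c' : Fin k → Fin (2 * (3 * k) + 1),
      |y c i - y c' i| ≤ Lam * Real.sqrt (gdist2 (3 * k) k c c') := by
    intro i c c'
    have h1 : |y c i - y c' i| ^ q ≤ ∑ i, |y c i - y c' i| ^ q :=
      Finset.single_le_sum (f := fun i => |y c i - y c' i| ^ q)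
        (fun i _ => Real.rpow_nonneg (abs_nonneg _) q) (Finset.mem_univ i)
    have hsqrt : Real.sqrt (gdist2 (3 * k) k c c') ^ q = (gdist2 (3 * k) k c c') ^ (q / 2) := by
      rw [Real.sqrt_eq_rpow, ← Real.rpow_mul (hg0 c c')]
      congr 1
      ring
    have h2 : |y c i - y c' i| ^ q ≤ (Lam * Real.sqrt (gdist2 (3 * k) k c c')) ^ q := by
      rw [Real.mul_rpow hLam0 (Real.sqrt_nonneg _), hLamq, hsqrt]
      calc |y c i - y c' i| ^ q ≤ ∑ i, |y c i - y c' i| ^ q := h1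
        _ ≤ A * s ^ q * ∑ e, |gX (3 * k) k c e - gX (3 * k) k c' e| ^ q := hup c c'
        _ ≤ A' * s ^ q * ∑ e, |gX (3 * k) k c e - gX (3 * k) k c' e| ^ q := by
            have h3 : A * s ^ q ≤ A' * s ^ q := mul_le_mul_of_nonneg_right hAA' hsq.le
            exact mul_le_mul_of_nonneg_right h3 (hX0 c c')
        _ ≤ A' * s ^ q * (U * (gdist2 (3 * k) k c c') ^ (q / 2)) :=
            mul_le_mul_of_nonneg_left (hXup c c') (by positivity)
        _ = A' * s ^ q * U * (gdist2 (3 * k) k c c') ^ (q / 2) := by ring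
    exact (Real.rpow_le_rpow_iff (abs_nonneg _) (by positivity) hq0).mp h2
  have hPhi0 : ∀ c : Fin k → Fin (2 * (3 * k) + 1), 0 ≤ gPhi (3 * k) k c := fun c =>
    Finset.prod_nonneg (fun j _ => (Real.exp_pos _).le)
  -- upper bound: concentration for each coordinate
  have hsum_up : ∑ c, ∑ c', gPhi (3 * k) k c * gPhi (3 * k) k c' * ∑ i, |y c i - y c' i| ^ q ≤
      d * (2 * (gZ (3 * k) + 1) ^ (2 * k) * (q * Mr ^ 2 / Real.exp 1) ^ (q / 2) * Lam ^ q) := by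
    have hA : ∑ c, ∑ c', gPhi (3 * k) k c * gPhi (3 * k) k c' * ∑ i, |y c i - y c' i| ^ q =
        ∑ i, ∑ c, ∑ c', gPhi (3 * k) k c * gPhi (3 * k) k c' * |y c i - y c' i| ^ q := by
      calc ∑ c, ∑ c', gPhi (3 * k) k c * gPhi (3 * k) k c' * ∑ i, |y c i - y c' i| ^ q
          = ∑ c, ∑ c', ∑ i, gPhi (3 * k) k c * gPhi (3 * k) k c' * |y c i - y c' i| ^ q :=
            Finset.sum_congr rfl (fun c _ => Finset.sum_congr rfl
              (fun c' _ => Finset.mul_sum _ _ _))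
        _ = ∑ c, ∑ i, ∑ c', gPhi (3 * k) k c * gPhi (3 * k) k c' * |y c i - y c' i| ^ q :=
            Finset.sum_congr rfl (fun c _ => Finset.sum_comm)
        _ = ∑ i, ∑ c, ∑ c', gPhi (3 * k) k c * gPhi (3 * k) k c' * |y c i - y c' i| ^ q :=
            Finset.sum_comm
    rw [hA]
    calc ∑ i, ∑ c, ∑ c', gPhi (3 * k) k c * gPhi (3 * k) k c' * |y c i - y c' i| ^ q
        ≤ ∑ _i : Fin d,
            (2 * (gZ (3 * k) + 1) ^ (2 * k) * (q * Mr ^ 2 / Real.exp 1) ^ (q / 2) * Lam ^ q) := by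
          refine Finset.sum_le_sum (fun i _ => ?_)
          have h := hconc (3 * k) hM k q (by linarith) Lam hLam0 (fun c => y c i) (hlip i)
          rw [← hMr] at h
          exact h
      _ = d * (2 * (gZ (3 * k) + 1) ^ (2 * k) * (q * Mr ^ 2 / Real.exp 1) ^ (q / 2) * Lam ^ q) := by
          rw [Finset.sum_const, Finset.card_univ, Fintype.card_fin, nsmul_eq_mul]
  -- lower bound: Khinchine from below and the spread of the product weights
  have hsum_low : s ^ q * (2 ^ k *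
        (gZ (3 * k) ^ (2 * k) * (2 * k * Mr ^ 2 / (3 * Real.exp 2)) ^ (q / 2))) ≤
      ∑ c, ∑ c', gPhi (3 * k) k c * gPhi (3 * k) k c' * ∑ i, |y c i - y c' i| ^ q := by
    have hsp := hspread (3 * k) hM k hk q hq
    rw [← hMr] at hsp
    calc s ^ q * (2 ^ k * (gZ (3 * k) ^ (2 * k) * (2 * k * Mr ^ 2 / (3 * Real.exp 2)) ^ (q / 2)))
        ≤ s ^ q * (2 ^ k * ∑ c, ∑ c', gPhi (3 * k) k c * gPhi (3 * k) k c' *
            (gdist2 (3 * k) k c c') ^ (q / 2)) :=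
          mul_le_mul_of_nonneg_left (mul_le_mul_of_nonneg_left hsp (by positivity)) hsq.le
      _ = ∑ c, ∑ c', gPhi (3 * k) k c * gPhi (3 * k) k c' *
            (s ^ q * (2 ^ k * (gdist2 (3 * k) k c c') ^ (q / 2))) := by
          rw [Finset.mul_sum, Finset.mul_sum]
          refine Finset.sum_congr rfl (fun c _ => ?_)
          rw [Finset.mul_sum, Finset.mul_sum]
          exact Finset.sum_congr rfl (fun c' _ => by ring)
      _ ≤ ∑ c, ∑ c', gPhi (3 * k) k c * gPhi (3 * k) k c' * ∑ i, |y c i - y c' i| ^ q := by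
          refine Finset.sum_le_sum (fun c _ => Finset.sum_le_sum (fun c' _ => ?_))
          refine mul_le_mul_of_nonneg_left ?_ (mul_nonneg (hPhi0 c) (hPhi0 c'))
          calc s ^ q * (2 ^ k * (gdist2 (3 * k) k c c') ^ (q / 2))
              ≤ s ^ q * ∑ e, |gX (3 * k) k c e - gX (3 * k) k c' e| ^ q :=
                mul_le_mul_of_nonneg_left (hXlow c c') hsq.le
            _ ≤ ∑ i, |y c i - y c' i| ^ q := hlow c c'
  have hmain := hsum_low.trans hsum_up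
  rw [hLamq] at hmain
  -- pure algebra from here on
  have hZpos : 0 < gZ (3 * k) := by
    unfold gZ
    exact Finset.sum_pos (fun t _ => by unfold gphi; exact Real.exp_pos _) Finset.univ_nonempty
  have hdef := hdefect k hk
  obtain ⟨Z2, hZ2⟩ : ∃ Z2 : ℝ, Z2 = gZ (3 * k) ^ (2 * k) := ⟨_, rfl⟩
  rw [← hZ2] at hmain hdef
  have hZ2pos : 0 < Z2 := by rw [hZ2]; positivity
  obtain ⟨R, hR⟩ : ∃ R : ℝ, R = (q ^ 2 * Mr ^ 2 / Real.exp 1 ^ 2) ^ (q / 2) := ⟨_, rfl⟩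
  have hRpos : 0 < R := by rw [hR]; positivity
  obtain ⟨L, hL⟩ : ∃ L : ℝ, L = (2 * (k:ℝ) / (3 * q ^ 2)) ^ (q / 2) := ⟨_, rfl⟩
  have hLpos : 0 < L := by rw [hL]; positivity
  have e2 : Real.exp 2 = Real.exp 1 ^ 2 := by
    rw [← Real.exp_nat_mul]; norm_num
  have e3 : (2 * (k:ℝ) * Mr ^ 2 / (3 * Real.exp 2)) ^ (q / 2) = L * R := by
    rw [hL, hR, ← Real.mul_rpow (by positivity) (by positivity), e2]
    congr 1
    field_simp
  have e4 : (q * Mr ^ 2 / Real.exp 1) ^ (q / 2) * (q / Real.exp 1) ^ (q / 2) = R := by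
    rw [hR, ← Real.mul_rpow (by positivity) (by positivity)]
    congr 1
    field_simp
  rw [e3] at hmain
  have hstep : (d : ℝ) * (2 * (gZ (3 * k) + 1) ^ (2 * k) * (q * Mr ^ 2 / Real.exp 1) ^ (q / 2) *
        (A' * s ^ q * U)) ≤
      (d : ℝ) * (2 * (Real.exp 1 * Z2) * (q * Mr ^ 2 / Real.exp 1) ^ (q / 2) *
        (A' * s ^ q * U)) := by
    have h1 : (0:ℝ) ≤ (q * Mr ^ 2 / Real.exp 1) ^ (q / 2) := by positivity
    have h2 : 2 * (gZ (3 * k) + 1) ^ (2 * k) ≤ 2 * (Real.exp 1 * Z2) := by linarith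
    exact mul_le_mul_of_nonneg_left
      (mul_le_mul_of_nonneg_right (mul_le_mul_of_nonneg_right h2 h1) hbase) (Nat.cast_nonneg d)
  have hmain2 := hmain.trans hstep
  have e5 : (d : ℝ) * (2 * (Real.exp 1 * Z2) * (q * Mr ^ 2 / Real.exp 1) ^ (q / 2) *
        (A' * s ^ q * U)) =
      s ^ q * (2 ^ k * (Z2 * R)) * (4 * Real.exp 1 * d * A') := by
    rw [← e4, hU]; ring
  rw [e5] at hmain2
  have hcancel : L ≤ 4 * Real.exp 1 * d * A' := by
    have hpos : 0 < s ^ q * (2 ^ k * (Z2 * R)) := by positivity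
    refine le_of_mul_le_mul_left ?_ hpos
    calc s ^ q * (2 ^ k * (Z2 * R)) * L = s ^ q * (2 ^ k * (Z2 * (L * R))) := by ring
      _ ≤ s ^ q * (2 ^ k * (Z2 * R)) * (4 * Real.exp 1 * d * A') := hmain2
  rw [← hL]
  have he9 : Real.exp 1 < 2.7182818286 := Real.exp_one_lt_d9
  rcases le_or_gt A 0 with hA0 | hA0
  · exfalso
    have : A' = 0 := by rw [hA']; exact max_eq_right hA0
    rw [this] at hcancel
    linarith
  · have hAeq : A' = A := by rw [hA']; exact max_eq_left hA0.le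
    rw [hAeq] at hcancel
    have hdA : 0 ≤ (d : ℝ) * A := mul_nonneg (Nat.cast_nonneg d) hA0.le
    nlinarith
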