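import Vale.Agent.Lib.P249.helper62.GridBasic
import Vale.Agent.Lib.P249.helper52.GridConcFinal
import Vale.Agent.Lib.P249.helper35.GridSpread
import Vale.Agent.Lib.P249.helper46.GridCore
import Vale.Agent.Lib.P249.helper46.GridFinalCore

/-!
Closed assembly of the grid lower bound for P249 (helper46, for helper62, report 1926):
`grid_core` and `grid_final` with the literal skeleton statements, from the pieces on main
(`khin_upper`, `khin_lower`, `gZ_defect`, `gX_injective` of helper62; `grid_conc` of helper52,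
built on helper44, helper3, helper40; `grid_spread` of helper35).
-/

namespace Vale.Agent.Lib.P249.H46

open Finset
open Vale.Agent.Lib.P249.H62

/-- finite core of the grid lower bound -/
theorem grid_core (k : ℕ) (hk : 1 ≤ k) (q : ℝ) (hq : 2 ≤ q) (d : ℕ) (s D : ℝ) (hs : 0 < s)
    (y : (Fin k → Fin (2 * (3 * k) + 1)) → Fin d → ℝ)
    (hlow : ∀ c c', s ^ q * ∑ e, |gX (3 * k) k c e - gX (3 * k) k c' e| ^ q
      ≤ ∑ i, |y c i - y c' i| ^ q)
    (hup : ∀ c c', ∑ i, |y c i - y c' i| ^ q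
      ≤ D ^ q * s ^ q * ∑ e, |gX (3 * k) k c e - gX (3 * k) k c' e| ^ q) :
    (1 / 11 : ℝ) * (2 * k / (3 * q ^ 2)) ^ (q / 2) ≤ D ^ q * d :=
  grid_core_of_lemmas khin_upper khin_lower Vale.Agent.Lib.P249.H52.grid_conc
    Vale.Agent.Lib.P249.H35.grid_spread Vale.Agent.Lib.P249.H62.gZ_defect
    k hk q hq d s D hs y hlow hup

/-- the grid lower bound in `PiLp` form (the hand-in statement of job GRID-L) -/
theorem grid_final (p : ENNReal) [Fact (1 ≤ p)] (hp : p ≠ ⊤) (hp2 : 2 ≤ p) (k : ℕ) (hk : 1 ≤ k) :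
    ∃ (m : ℕ) (x : Fin ((6 * k + 1) ^ k) → PiLp p (fun _ : Fin m => ℝ)), Function.Injective x ∧
      ∀ (d : ℕ) (y : Fin ((6 * k + 1) ^ k) → PiLp p (fun _ : Fin d => ℝ)) (s D : ℝ), 0 < s →
        (∀ i j, s * dist (x i) (x j) ≤ dist (y i) (y j) ∧
          dist (y i) (y j) ≤ D * s * dist (x i) (x j)) →
        (1 / 11 : ℝ) * (2 * k / (3 * p.toReal ^ 2)) ^ (p.toReal / 2) ≤ D ^ p.toReal * d :=
  grid_final_of_core grid_core gX_injective p hp hp2 k hk

end Vale.Agent.Lib.P249.H46
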