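import Vale.Agent.Lib.P249.helper62.GridDefs

/-!
Backup copies of two small lemmas of the grid lower bound for P249 (helper46, for helper62,
skeleton report 2004): bounds on the one-coordinate total weight `gZ M` and the summable
defect `(Z + 1)^(2k) ≤ e * Z^(2k)` for `M = 3k`.
-/

namespace Vale.Agent.Lib.P249.H46

open Finset
open Vale.Agent.Lib.P249.H62

/-- bounds on the one-coordinate total weight -/
theorem gZ_bounds (M : ℕ) (hM : 1 ≤ M) :
    (2 * (M : ℝ) + 1) / Real.exp 1 ≤ gZ M ∧ gZ M ≤ 2 * (M : ℝ) + 1 := by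
  have hMpos : (0 : ℝ) < M := by exact_mod_cast hM
  have hcard : ((Finset.univ : Finset (Fin (2 * M + 1))).card : ℝ) = 2 * (M : ℝ) + 1 := by
    rw [Finset.card_univ, Fintype.card_fin]; push_cast; ring
  have hterm : ∀ t : Fin (2 * M + 1), Real.exp (-1) ≤ gphi M t ∧ gphi M t ≤ 1 := by
    intro t
    unfold gphi gv
    have ht : ((t : ℕ) : ℝ) ≤ 2 * M := by
      have h1 := t.isLt
      have h2 : (t : ℕ) ≤ 2 * M := by omega
      exact_mod_cast h2
    have ht0 : (0 : ℝ) ≤ ((t : ℕ) : ℝ) := Nat.cast_nonneg _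
    have hsq : (((t : ℕ) : ℝ) - M) ^ 2 ≤ (M : ℝ) ^ 2 := by nlinarith
    have hM2 : (0 : ℝ) < (M : ℝ) ^ 2 := by positivity
    constructor
    · apply Real.exp_le_exp.mpr
      rw [neg_div, neg_le_neg_iff, div_le_one hM2]
      exact hsq
    · rw [← Real.exp_zero]
      apply Real.exp_le_exp.mpr
      have h3 : 0 ≤ (((t : ℕ) : ℝ) - M) ^ 2 / (M : ℝ) ^ 2 := by positivity
      rw [neg_div]; linarith
  constructor
  · unfold gZ
    calc (2 * (M : ℝ) + 1) / Real.exp 1 = ∑ _t : Fin (2 * M + 1), Real.exp (-1) := by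
          rw [Finset.sum_const, nsmul_eq_mul, hcard, Real.exp_neg]; ring
      _ ≤ ∑ t, gphi M t := Finset.sum_le_sum (fun t _ => (hterm t).1)
  · unfold gZ
    calc ∑ t, gphi M t ≤ ∑ _t : Fin (2 * M + 1), (1 : ℝ) :=
          Finset.sum_le_sum (fun t _ => (hterm t).2)
      _ = 2 * (M : ℝ) + 1 := by rw [Finset.sum_const, nsmul_eq_mul, hcard, mul_one]

/-- the defect is summable: `(Z + 1)^(2k) ≤ e * Z^(2k)` for `M = 3k` -/
theorem gZ_defect (k : ℕ) (hk : 1 ≤ k) :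
    (gZ (3 * k) + 1) ^ (2 * k) ≤ Real.exp 1 * gZ (3 * k) ^ (2 * k) := by
  have hkpos : (1 : ℝ) ≤ k := by exact_mod_cast hk
  have hb := (gZ_bounds (3 * k) (by omega)).1
  push_cast at hb
  have he : 0 < Real.exp 1 := Real.exp_pos 1
  have he3 : Real.exp 1 < 3 := by have := Real.exp_one_lt_d9; linarith
  obtain ⟨Z, hZ⟩ : ∃ Z : ℝ, Z = gZ (3 * k) := ⟨_, rfl⟩
  rw [← hZ] at hb ⊢
  have hZ2k : 2 * (k : ℝ) ≤ Z := by
    have h1 : 2 * (k:ℝ) ≤ (2 * (3 * (k:ℝ)) + 1) / Real.exp 1 := by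
      rw [le_div_iff₀ he]; nlinarith
    linarith
  have hZpos : 0 < Z := by linarith
  have h1 : Z + 1 ≤ Z * Real.exp (1 / Z) := by
    have h4 := Real.add_one_le_exp (1 / Z)
    have h2 : Z * (1 / Z + 1) ≤ Z * Real.exp (1 / Z) := mul_le_mul_of_nonneg_left h4 hZpos.le
    have h3 : Z * (1 / Z + 1) = Z + 1 := by field_simp; ring
    linarith
  calc (Z + 1) ^ (2 * k) ≤ (Z * Real.exp (1 / Z)) ^ (2 * k) :=
        pow_le_pow_left₀ (by positivity) h1 _
    _ = Real.exp (((2 * k : ℕ) : ℝ) * (1 / Z)) * Z ^ (2 * k) := by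
        rw [mul_pow, Real.exp_nat_mul]; ring
    _ ≤ Real.exp 1 * Z ^ (2 * k) := by
        refine mul_le_mul_of_nonneg_right (Real.exp_le_exp.mpr ?_) (by positivity)
        push_cast
        rw [mul_one_div, div_le_one hZpos]
        exact hZ2k

end Vale.Agent.Lib.P249.H46
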